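import Crest.Agent.N207.I.Met
import Crest.Agent.N207.I.Lim1
import Crest.Agent.N207.Sk.Defs

-- ▼ part N207/TR/Jet
section

/-!
# Row 207 (helper38): finite order jet calculus with a weight

`FO m w f x`: `f j` is smooth at `x j`, its jets of order `≤ m` at `x j` are `O(w j)`, uniformly.
-/

set_option autoImplicit false
open Set Filter Topology Function Metric Asymptotics
open scoped ContDiff
open Crest.GeometryTopology.CoordMetric Crest.GeometryTopology.ChartCurvature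
open Crest.Agent.R202.Tens

noncomputable section

namespace Crest.Agent.N207.TR

open Jt

variable {ι X Y Z W : Type} [NormedAddCommGroup X] [NormedSpace ℝ X] [NormedAddCommGroup Y]
  [NormedSpace ℝ Y] [NormedAddCommGroup Z] [NormedSpace ℝ Z] [NormedAddCommGroup W]
  [NormedSpace ℝ W]

/-- smooth germs whose jets of order `≤ m` are `O(w)` -/
structure FO (m : ℕ) (w : ι → ℝ) (f : ι → X → Y) (x : ι → X) : Prop where
  sm : ∀ j, ContDiffAt ℝ ∞ (f j) (x j)
  bd : ∀ k ≤ m, (fun j => iteratedFDeriv ℝ k (f j) (x j)) =O[⊤] w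

variable {m : ℕ} {w : ι → ℝ} {f f' : ι → X → Y} {x : ι → X}

theorem FO.of_le (hs : ∀ j, ContDiffAt ℝ ∞ (f j) (x j)) {C : ℝ}
    (h : ∀ k ≤ m, ∀ j, ‖iteratedFDeriv ℝ k (f j) (x j)‖ ≤ C * |w j|) : FO m w f x :=
  ⟨hs, fun k hk => IsBigO.of_bound C (eventually_top.2 (h k hk))⟩

theorem FO.le (h : FO m w f x) :
    ∃ C, 0 < C ∧ ∀ k ≤ m, ∀ j, ‖iteratedFDeriv ℝ k (f j) (x j)‖ ≤ C * |w j| := by
  have : ∀ k : Fin (m + 1), ∃ C, ∀ j, ‖iteratedFDeriv ℝ k (f j) (x j)‖ ≤ C * |w j| := fun k => by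
    obtain ⟨C, hC⟩ := (h.bd k (by omega)).bound
    exact ⟨C, eventually_top.1 hC⟩
  choose C hC using this
  obtain ⟨D, hD⟩ := (finite_range C).bddAbove
  refine ⟨max D 1, by positivity, fun k hk j => (hC ⟨k, by omega⟩ j).trans ?_⟩
  exact mul_le_mul_of_nonneg_right ((hD (mem_range_self _)).trans (le_max_left _ _)) (abs_nonneg _)

theorem FO.mono {m' : ℕ} (h : FO m w f x) (hm : m' ≤ m) : FO m' w f x :=
  ⟨h.sm, fun k hk => h.bd k (hk.trans hm)⟩

theorem FO.wt {w' : ι → ℝ} (h : FO m w f x) (hw : w =O[⊤] w') : FO m w' f x :=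
  ⟨h.sm, fun k hk => (h.bd k hk).trans hw⟩

theorem FO.congr (h : FO m w f x) (e : ∀ j, f' j =ᶠ[𝓝 (x j)] f j) : FO m w f' x :=
  ⟨fun j => (h.sm j).congr_of_eventuallyEq (e j), fun k hk =>
    (h.bd k hk).congr_left fun j => ((e j).iteratedFDeriv ℝ k).eq_of_nhds.symm⟩

theorem FO.bu (h : FO m (fun _ => 1) f x) {k : ℕ} (hk : k ≤ m) :
    (⊤ : Filter ι).IsBoundedUnder (· ≤ ·) fun j => ‖ftaylorSeries ℝ (f j) (x j) k‖ :=
  (h.bd k hk).isBoundedUnder_le

theorem FO.comp {g : ι → Y → Z} (hg : FO m w g fun j => f j (x j)) (hf : FO m (fun _ => 1) f x) :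
    FO m w (fun j z => g j (f j z)) x := by
  refine ⟨fun j => (hg.sm j).comp _ (hf.sm j), fun k hk => ?_⟩
  have := FormalMultilinearSeries.taylorComp_sub_taylorComp_isBigO (l := ⊤)
    (p₁ := fun _ => 0) (p₂ := fun j => ftaylorSeries ℝ (g j) (f j (x j)))
    (q₁ := fun j => ftaylorSeries ℝ (f j) (x j)) (q₂ := fun j => ftaylorSeries ℝ (f j) (x j))
    (f := w) (n := k) (fun i _ => by simpa using isBoundedUnder_const)
    (fun i hi => (hg.bd i (hi.trans hk)).neg_left.congr_left fun _ => (zero_sub _).symm)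
    (fun i hi => hf.bu (hi.trans hk)) (fun i hi => hf.bu (hi.trans hk))
    (fun i _ => by simp only [sub_self]; exact isBigO_zero _ _)
  refine this.neg_left.congr_left fun j => ?_
  have e := iteratedFDeriv_comp (hg.sm j) (hf.sm j) (kle k)
  have z : (0 : FormalMultilinearSeries ℝ Y Z).taylorComp (ftaylorSeries ℝ (f j) (x j)) k = 0 := by
    simp only [FormalMultilinearSeries.taylorComp]
    refine Finset.sum_eq_zero fun c _ => ?_
    ext v; simp
  rw [z, zero_sub, neg_neg, ← e]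
  rfl

theorem FO.fixed {Φ : X → Y} {K : Set X} (hK : IsCompact K) (hΦ : ∀ z ∈ K, ContDiffAt ℝ ∞ Φ z)
    (hx : ∀ j, x j ∈ K) : FO m (fun _ => 1) (fun _ => Φ) x := by
  refine ⟨fun j => hΦ _ (hx j), fun k _ => ?_⟩
  obtain ⟨C, hC⟩ := hK.exists_bound_of_continuousOn (f := iteratedFDeriv ℝ k Φ) fun z hz =>
    ((hΦ z hz).continuousAt_iteratedFDeriv (kle k)).continuousWithinAt
  exact IsBigO.of_bound C (eventually_top.2 fun j => by simpa using hC _ (hx j))

theorem FO.smoothOn {Φ : Y → Z} {K : Set Y} (hK : IsCompact K) (hΦ : ∀ z ∈ K, ContDiffAt ℝ ∞ Φ z)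
    (h : FO m (fun _ => 1) f x) (hx : ∀ j, f j (x j) ∈ K) :
    FO m (fun _ => 1) (fun j z => Φ (f j z)) x := (FO.fixed hK hΦ hx).comp h

theorem FO.const (c : Y) : FO m (fun _ => 1) (fun _ _ => c) x := by
  refine FO.of_le (fun _ => contDiffAt_const) (C := ‖c‖) fun k _ j => ?_
  rcases eq_or_ne k 0 with rfl | hk
  · simp [norm_iteratedFDeriv_zero]
  · simp [iteratedFDeriv_const_of_ne hk]

theorem FO.zero : FO m w (fun _ _ => (0 : Y)) x :=
  FO.of_le (fun _ => contDiffAt_const) (C := 0) fun k _ j => by simp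

theorem FO.add (h : FO m w f x) (h' : FO m w f' x) : FO m w (fun j z => f j z + f' j z) x :=
  ⟨fun j => (h.sm j).add (h'.sm j), fun k hk => ((h.bd k hk).add (h'.bd k hk)).congr_left fun j =>
    (iteratedFDeriv_add_apply ((h.sm j).of_le (kle k)) ((h'.sm j).of_le (kle k))).symm⟩

theorem FO.sub (h : FO m w f x) (h' : FO m w f' x) : FO m w (fun j z => f j z - f' j z) x :=
  ⟨fun j => (h.sm j).sub (h'.sm j), fun k hk => ((h.bd k hk).sub (h'.bd k hk)).congr_left fun j =>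
    (iteratedFDeriv_sub_apply ((h.sm j).of_le (kle k)) ((h'.sm j).of_le (kle k))).symm⟩

theorem FO.sum {α : Type} (s : Finset α) {u : α → ι → X → Y} (h : ∀ a ∈ s, FO m w (u a) x) :
    FO m w (fun j z => ∑ a ∈ s, u a j z) x := by
  classical
  induction s using Finset.induction_on with
  | empty => simpa using FO.zero
  | insert a s ha ih =>
    simpa [Finset.sum_insert ha] using (h a (by simp)).add (ih fun b hb => h b (by simp [hb]))

theorem FO.clm (L : Y →L[ℝ] Z) (h : FO m w f x) : FO m w (fun j z => L (f j z)) x := by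
  refine ⟨fun j => L.contDiff.contDiffAt.comp _ (h.sm j), fun k hk => ?_⟩
  refine (IsBigO.of_bound ‖L‖ (eventually_top.2 fun j => ?_)).trans (h.bd k hk)
  exact L.norm_iteratedFDeriv_comp_left (h.sm j) (kle k)

theorem bil_le (B : Y →L[ℝ] Z →L[ℝ] W) {f : X → Y} {g : X → Z} {x : X} (hf : ContDiffAt ℝ ∞ f x)
    (hg : ContDiffAt ℝ ∞ g x) (k : ℕ) : ‖iteratedFDeriv ℝ k (fun y => B (f y) (g y)) x‖ ≤
      ‖B‖ * ∑ i ∈ Finset.range (k + 1), (k.choose i : ℝ) * ‖iteratedFDeriv ℝ i f x‖ *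
        ‖iteratedFDeriv ℝ (k - i) g x‖ := by
  obtain ⟨u, hu, hxu, hs⟩ := (hf.prodMk hg).contDiffWithinAt (s := univ) |>.contDiffOn' (kle k)
    (by simp)
  rw [insert_eq_of_mem (mem_univ x), univ_inter] at hs
  have := B.norm_iteratedFDerivWithin_le_of_bilinear hs.fst hs.snd hu.uniqueDiffOn hxu le_rfl
  simpa only [iteratedFDerivWithin_of_isOpen _ hu hxu] using this

theorem FO.bil (B : Y →L[ℝ] Z →L[ℝ] W) {g : ι → X → Z} (hf : FO m w f x)
    (hg : FO m (fun _ => 1) g x) : FO m w (fun j z => B (f j z) (g j z)) x := by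
  refine ⟨fun j => (B.contDiff.contDiffAt.comp _ (hf.sm j)).clm_apply (hg.sm j), fun k hk => ?_⟩
  refine (IsBigO.of_bound (g := fun j => ∑ i ∈ Finset.range (k + 1), (k.choose i : ℝ) *
    ‖iteratedFDeriv ℝ i (f j) (x j)‖ * ‖iteratedFDeriv ℝ (k - i) (g j) (x j)‖) ‖B‖
    (eventually_top.2 fun j => (bil_le B (hf.sm j) (hg.sm j) k).trans
      (mul_le_mul_of_nonneg_left (le_abs_self _) (norm_nonneg B)))).trans ?_
  refine IsBigO.fun_sum fun i hi => ?_
  have hi' : i ≤ k := by simpa [Nat.lt_succ_iff] using hi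
  have := ((hf.bd i (hi'.trans hk)).norm_left.const_mul_left (k.choose i : ℝ)).mul
    (hg.bd (k - i) (by omega)).norm_left
  simpa using this

theorem FO.bil' (B : Y →L[ℝ] Z →L[ℝ] W) {g : ι → X → Z} (hf : FO m (fun _ => 1) f x)
    (hg : FO m w g x) : FO m w (fun j z => B (f j z) (g j z)) x := hg.bil B.flip hf

theorem FO.mul {u v : ι → X → ℝ} (hu : FO m (fun _ => 1) u x) (hv : FO m w v x) :
    FO m w (fun j z => u j z * v j z) x := hu.bil' (ContinuousLinearMap.mul ℝ ℝ) hv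

theorem FO.smul_const {u : ι → X → ℝ} (hu : FO m w u x) (c : Y) :
    FO m w (fun j z => u j z • c) x := hu.clm ((ContinuousLinearMap.id ℝ ℝ).smulRight c)

theorem FO.fderiv (h : FO (m + 1) w f x) : FO m w (fun j => fderiv ℝ (f j)) x :=
  ⟨fun j => (h.sm j).fderiv_right (m := ∞) (by simp), fun k hk => by
    refine IsBigO.of_norm_left ?_
    simpa only [norm_iteratedFDeriv_fderiv] using (h.bd (k + 1) (by omega)).norm_left⟩

theorem FO.of_fderiv (hs : ∀ j, ContDiffAt ℝ ∞ (f j) (x j)) (h0 : (fun j => f j (x j)) =O[⊤] w)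
    (h : FO m w (fun j => _root_.fderiv ℝ (f j)) x) : FO (m + 1) w f x := by
  refine ⟨hs, fun k hk => IsBigO.of_norm_left ?_⟩
  rcases k with _ | k
  · simpa only [norm_iteratedFDeriv_zero] using h0.norm_left
  · simpa only [norm_iteratedFDeriv_fderiv] using (h.bd k (by omega)).norm_left

theorem FO.pi {α : Type} [Fintype α] {f : ι → X → α → Y}
    (h : ∀ a, FO m w (fun j z => f j z a) x) : FO m w f x := by
  classical
  have := FO.sum Finset.univ fun a _ => (h a).clm (ContinuousLinearMap.single ℝ (fun _ : α => Y) a)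
  simpa [Finset.univ_sum_single] using this

variable {n : ℕ} {x : ι → En n}

theorem FO.pd {f : ι → En n → ℝ} (h : FO (m + 1) w f x) (a : Fin n) :
    FO m w (fun j => pderiv a (f j)) x :=
  h.fderiv.clm (ContinuousLinearMap.apply ℝ ℝ (EuclideanSpace.single a (1 : ℝ)))

end Crest.Agent.N207.TR

end
end

-- ▼ part N207/TR/Core

/-!
# Row 207 (helper38): the jets of a local isometry between two almost Euclidean metrics
-/

set_option autoImplicit false
open Set Filter Topology Function Metric Asymptotics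
open scoped ContDiff InnerProductSpace
open Crest.GeometryTopology.CoordMetric Crest.GeometryTopology.ChartCurvature
open Crest.Agent.R202.Tens

noncomputable section

namespace Crest.Agent.N207.TR

open Jt Sk

variable {ι : Type} {m : ℕ} {w : ι → ℝ}

theorem sm_inv {n : ℕ} (a b : Fin n) (A : Fin n → Fin n → ℝ) (hA : (Matrix.of A).PosDef) :
    ContDiffAt ℝ ∞ (fun A : Fin n → Fin n → ℝ => (Matrix.of A)⁻¹ a b) A := by
  simp only [Matrix.inv_def, Ring.inverse_eq_inv, Matrix.smul_apply, smul_eq_mul,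
    Matrix.adjugate_apply]
  refine (ME.sm_det.contDiffAt.inv hA.det_pos.ne').mul (ContDiff.contDiffAt ?_)
  refine ME.sm_det.comp (f := fun A : Fin n → Fin n → ℝ => Function.update A b (Pi.single a 1)) ?_
  refine contDiff_pi.2 fun i => ?_
  by_cases hi : i = b
  · subst hi; simpa using contDiff_const
  · simpa [Function.update_of_ne hi] using contDiff_apply ℝ (Fin n → ℝ) i

theorem pd_dv (G : MetricField 4) (a b c : Fin 4) :
    pderiv c (fun y => G y a b) = pderiv c (dv G a b) := by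
  funext y
  simp only [pderiv]
  rw [show dv G a b = fun y => G y a b - (1 : Matrix (Fin 4) (Fin 4) ℝ) a b from rfl,
    fderiv_sub_const]

/-- the Christoffel symbols of an almost Euclidean metric are small -/
theorem FO.gam {g : ι → MetricField 4} {x : ι → E4}
    (hg : ∀ a b, FO (m + 1) w (fun j => dv (g j) a b) x) (hw : w =O[⊤] fun _ => (1 : ℝ))
    (hp : ∀ j, Pos (1 / 2) (g j (x j))) : FO m w (fun j => Gam (g j)) x := by
  have h1 : ∀ a b, FO m (fun _ => 1) (fun j y => g j y a b) x := fun a b => by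
    have := (((hg a b).wt hw).mono (Nat.le_succ m)).add
      (FO.const ((1 : Matrix (Fin 4) (Fin 4) ℝ) a b))
    simpa [dv] using this
  have h2 : FO m (fun _ => 1) (fun j y => fun a b => g j y a b) x :=
    FO.pi fun a => FO.pi fun b => h1 a b
  obtain ⟨C, -, hC⟩ := h2.le
  have h3 : ∀ a b, FO m (fun _ => 1) (fun j y => (g j y)⁻¹ a b) x := fun a b =>
    FO.smoothOn (Φ := fun A : Fin 4 → Fin 4 → ℝ => (Matrix.of A)⁻¹ a b)
      ((isCompact_closedBall (0 : Fin 4 → Fin 4 → ℝ) C).inter_right (isClosed_pos (1 / 2)))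
      (fun A hA => sm_inv a b A (hA.2.posDef (by norm_num))) h2 fun j =>
        ⟨by simpa [norm_iteratedFDeriv_zero] using hC 0 (Nat.zero_le _) j, hp j⟩
  have h4 : ∀ a b c, FO m w (fun j => pderiv c (fun y => g j y a b)) x := fun a b c => by
    simpa only [pd_dv] using (hg a b).pd c
  have h5 : ∀ c a b, FO m w (fun j y => christoffel (g j) y c a b) x := fun c a b =>
    (FO.const (1 / 2 : ℝ)).mul (FO.sum Finset.univ fun d _ => (h3 c d).mul
      (((h4 b d a).add (h4 a d b)).sub (h4 a b d)))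
  exact FO.sum Finset.univ fun a _ => FO.sum Finset.univ fun b _ => FO.sum Finset.univ fun c _ =>
    (h5 c a b).smul_const _

/-- endomorphisms -/
abbrev L1 : Type := E4 →L[ℝ] E4

/-- bilinear maps -/
abbrev L2 : Type := E4 →L[ℝ] L1

/-- jets of local isometries -/
theorem FO.iso {g g' : ι → MetricField 4} {τ : ι → E4 → E4} {x : ι → E4}
    (hP : ∀ j, ∃ V W, x j ∈ V ∧ Pull (g j) (g' j) (τ j) V W) (hw : w =O[⊤] fun _ => (1 : ℝ))
    (hg : FO m w (fun j => Gam (g j)) x) (hg' : FO m w (fun j => Gam (g' j)) fun j => τ j (x j))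
    (h0 : (fun j => τ j (x j)) =O[⊤] fun _ => (1 : ℝ))
    (h1 : (fun j => _root_.fderiv ℝ (τ j) (x j)) =O[⊤] fun _ => (1 : ℝ)) :
    FO m w (fun j => _root_.fderiv ℝ (_root_.fderiv ℝ (τ j))) x := by
  have hs : ∀ j, ContDiffAt ℝ ∞ (τ j) (x j) := fun j => by
    obtain ⟨V, W, a, b⟩ := hP j
    exact b.contDiffAt a
  have hs1 : ∀ j, ContDiffAt ℝ ∞ (_root_.fderiv ℝ (τ j)) (x j) := fun j =>
    (hs j).fderiv_right (m := ∞) (by simp)
  have step : ∀ k ≤ m, FO k (fun _ => 1) (fun j => _root_.fderiv ℝ (τ j)) x →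
      FO k w (fun j => _root_.fderiv ℝ (_root_.fderiv ℝ (τ j))) x := fun k hk hL => by
    have hτ : FO k (fun _ => 1) τ x := (FO.of_fderiv hs h0 hL).mono (Nat.le_succ k)
    have hΓ' := (hg'.mono hk).comp hτ
    have t1 := FO.bil' (Y := L1 →L[ℝ] L1) (Z := L2) (W := L2)
      (ContinuousLinearMap.compL ℝ E4 L1 L1)
      (hL.clm (Z := L1 →L[ℝ] L1) (ContinuousLinearMap.compL ℝ E4 E4 E4)) (hg.mono hk)
    have t2 := FO.bil' (Y := L1 →L[ℝ] L1) (Z := L2) (W := L2)
      (ContinuousLinearMap.compL ℝ E4 L1 L1)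
      (hL.clm (Z := L1 →L[ℝ] L1) (ContinuousLinearMap.compL ℝ E4 E4 E4).flip)
      (FO.bil (Y := L2) (Z := L1) (W := L2) (ContinuousLinearMap.compL ℝ E4 E4 L1) hΓ' hL)
    refine (t1.sub t2).congr fun j => ?_
    obtain ⟨V, W, a, b⟩ := hP j
    filter_upwards [b.isOpen.mem_nhds a] with z hz
    refine ContinuousLinearMap.ext fun X => ContinuousLinearMap.ext fun Y => ?_
    simp [b.gam_eq hz X Y]
  have all : ∀ k ≤ m, FO k (fun _ => 1) (fun j => _root_.fderiv ℝ (τ j)) x := fun k => by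
    induction k with
    | zero => exact fun _ => ⟨hs1, fun k hk => by
        obtain rfl : k = 0 := by omega
        refine IsBigO.of_norm_left ?_
        simpa only [norm_iteratedFDeriv_zero] using h1.norm_left⟩
    | succ k ih => exact fun hk => FO.of_fderiv hs1 h1 ((step k (by omega) (ih (by omega))).wt hw)
  exact step m le_rfl (all m le_rfl)

theorem bil_sub_inner {A : Matrix (Fin 4) (Fin 4) ℝ} {c : ℝ}
    (h : ∀ a b, |A a b - (1 : Matrix (Fin 4) (Fin 4) ℝ) a b| ≤ c) (v u : E4) :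
    |bil A v u - ⟪v, u⟫_ℝ| ≤ 16 * c * (‖v‖ * ‖u‖) := by
  have h1 := abs_bil_le (A := A - 1) (C := c) h v u
  have h2 : bil A v u - ⟪v, u⟫_ℝ = bil (A - 1) v u := by
    simp only [bil_apply, Matrix.sub_apply, Matrix.one_apply, PiLp.inner_apply,
      sub_mul, Finset.sum_sub_distrib, ite_mul, one_mul, zero_mul, Finset.sum_ite_eq,
      Finset.mem_univ, if_true, RCLike.inner_apply, conj_trivial]
    congr 1
    exact Finset.sum_congr rfl fun i _ => mul_comm _ _
  rw [h2]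
  convert h1 using 2
  norm_num

section pt

variable {G G' : MetricField 4} {Θ : E4 → E4} {V W : Set E4} {x : E4} {c : ℝ}

theorem norm_D_le (h : Pull G G' Θ V W) (hx : x ∈ V) (h1 : ∀ a b, |dv G a b x| ≤ 1 / 100)
    (h2 : ∀ a b, |dv G' a b (Θ x)| ≤ 1 / 100) : ‖fderiv ℝ Θ x‖ ≤ 2 := by
  refine ContinuousLinearMap.opNorm_le_bound _ (by norm_num) fun v => ?_
  have a := abs_le.1 (bil_sub_inner h1 v v)
  have b := abs_le.1 (bil_sub_inner h2 (fderiv ℝ Θ x v) (fderiv ℝ Θ x v))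
  rw [real_inner_self_eq_norm_sq] at a b
  rw [← h.bil_eq hx] at b
  refine (pow_le_pow_iff_left₀ (norm_nonneg _) (by positivity) two_ne_zero).1 ?_
  nlinarith [a.2, b.1]

theorem star_D (h : Pull G G' Θ V W) (hx : x ∈ V) (hc : c ≤ 1 / 100) (h1 : ∀ a b, |dv G a b x| ≤ c)
    (h2 : ∀ a b, |dv G' a b (Θ x)| ≤ c) :
    ‖star (fderiv ℝ Θ x) * fderiv ℝ Θ x - 1‖ ≤ 80 * c := by
  have hc0 : 0 ≤ c := (abs_nonneg _).trans (h1 0 0)
  have hL := norm_D_le h hx (fun a b => (h1 a b).trans hc) fun a b => (h2 a b).trans hc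
  set L := fderiv ℝ Θ x with hLd
  have key : ∀ v u, |⟪(star L * L - 1) v, u⟫_ℝ| ≤ 80 * c * (‖v‖ * ‖u‖) := fun v u => by
    have e : ⟪(star L * L - 1) v, u⟫_ℝ = ⟪L v, L u⟫_ℝ - ⟪v, u⟫_ℝ := by
      rw [ContinuousLinearMap.star_eq_adjoint, ContinuousLinearMap.sub_apply, inner_sub_left,
        ContinuousLinearMap.mul_apply, ContinuousLinearMap.adjoint_inner_left]
      rfl
    have a := abs_le.1 (bil_sub_inner h1 v u)
    have b := abs_le.1 (bil_sub_inner h2 (L v) (L u))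
    rw [← h.bil_eq hx] at b
    have d : ‖L v‖ * ‖L u‖ ≤ 4 * (‖v‖ * ‖u‖) := by
      have := mul_le_mul (L.le_of_opNorm_le hL v) (L.le_of_opNorm_le hL u) (norm_nonneg _)
        (by positivity)
      linarith
    have d' := mul_le_mul_of_nonneg_left d hc0
    rw [e, abs_le]
    constructor <;> nlinarith [a.1, a.2, b.1, b.2]
  refine ContinuousLinearMap.opNorm_le_bound _ (by positivity) fun v => ?_
  have := (le_abs_self _).trans (key v ((star L * L - 1) v))
  rw [real_inner_self_eq_norm_sq] at this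
  rcases (norm_nonneg ((star L * L - 1) v)).eq_or_lt with h0 | h0
  · rw [← h0]; positivity
  · refine le_of_mul_le_mul_right ?_ h0
    nlinarith

theorem pos_of_dv (h : IsRiemannianOn G V) (hx : x ∈ V) (h1 : ∀ a b, |dv G a b x| ≤ 1 / 100) :
    Pos (1 / 2) (G x) := I.pos_of_small (fun a b => metric_symm h hx a b) h1

end pt

/-- the data of `core` -/
structure Dt (m : ℕ) (K : ℝ) where
  G : MetricField 4
  G' : MetricField 4
  Θ : E4 → E4
  V : Set E4
  W : Set E4
  x : E4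
  δ : ℝ
  pull : Pull G G' Θ V W
  mem : x ∈ V
  d0 : 0 ≤ δ
  d1 : δ ≤ 1
  val : ‖Θ x‖ ≤ K
  s1 : ∀ a b, |dv G a b x| ≤ 1 / 100
  s2 : ∀ a b, |dv G' a b (Θ x)| ≤ 1 / 100
  j1 : ∀ k ≤ m + 1, ∀ a b, ‖iteratedFDeriv ℝ k (dv G a b) x‖ ≤ K * δ
  j2 : ∀ k ≤ m + 1, ∀ a b, ‖iteratedFDeriv ℝ k (dv G' a b) (Θ x)‖ ≤ K * δ

theorem sm_dv {G : MetricField 4} {V : Set E4} {x : E4} (h : IsRiemannianOn G V) (hx : x ∈ V)
    (a b : Fin 4) : ContDiffAt ℝ ∞ (dv G a b) x :=
  ((h.contDiffOn a b).contDiffAt (h.isOpen.mem_nhds hx)).sub contDiffAt_const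

/-- **the higher jets of a local isometry are small** -/
theorem core (m : ℕ) (K : ℝ) : ∃ C : ℝ, 0 < C ∧ ∀ D : Dt m K, ∀ k ≤ m,
    ‖iteratedFDeriv ℝ (k + 2) D.Θ D.x‖ ≤ C * D.δ := by
  have hw : (fun D : Dt m K => D.δ) =O[⊤] fun _ => (1 : ℝ) :=
    IsBigO.of_bound 1 (eventually_top.2 fun D => by simpa [abs_of_nonneg D.d0] using D.d1)
  have h := FO.iso (m := m) (g := fun D : Dt m K => D.G) (g' := fun D => D.G') (τ := fun D => D.Θ)
    (x := fun D => D.x) (fun D => ⟨D.V, D.W, D.mem, D.pull⟩) hw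
    (FO.gam (fun a b => FO.of_le (fun D => sm_dv D.pull.riem' D.mem a b) (C := K) fun k hk D => by
      rw [abs_of_nonneg D.d0]; exact D.j1 k hk a b) hw fun D => pos_of_dv D.pull.riem' D.mem D.s1)
    (FO.gam (fun a b => FO.of_le (fun D => sm_dv D.pull.riem (D.pull.maps _ D.mem) a b) (C := K)
      fun k hk D => by rw [abs_of_nonneg D.d0]; exact D.j2 k hk a b) hw
      fun D => pos_of_dv D.pull.riem (D.pull.maps _ D.mem) D.s2)
    (IsBigO.of_bound K (eventually_top.2 fun D => by simpa using D.val))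
    (IsBigO.of_bound 2 (eventually_top.2 fun D => by
      simpa using norm_D_le D.pull D.mem D.s1 D.s2))
  obtain ⟨C, hC, hb⟩ := h.le
  refine ⟨C, hC, fun D k hk => ?_⟩
  have := hb k hk D
  rwa [norm_iteratedFDeriv_fderiv, norm_iteratedFDeriv_fderiv, abs_of_nonneg D.d0] at this

/-- rescaling a local isometry -/
theorem pull_scale {G G' : MetricField 4} {Θ : E4 → E4} {V W : Set E4} (h : Pull G G' Θ V W)
    {s : ℝ} (hs : 0 < s) : Pull (fun z => G (s • z)) (fun z => G' (s • z))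
      (fun z => s⁻¹ • Θ (s • z)) ((fun z => s • z) ⁻¹' V) ((fun z => s • z) ⁻¹' W) := by
  have hc : ContDiff ℝ ∞ fun z : E4 => s • z := by fun_prop
  have e : ∀ z : E4, s • s⁻¹ • Θ (s • z) = Θ (s • z) := fun z => smul_inv_smul₀ hs.ne' _
  have hd : ∀ z ∈ (fun z => s • z) ⁻¹' V,
      fderiv ℝ (fun z => s⁻¹ • Θ (s • z)) z = fderiv ℝ Θ (s • z) := fun z hz => by
    have h1 : HasFDerivAt Θ (fderiv ℝ Θ (s • z)) (s • z) :=
      ((h.contDiffAt hz).differentiableAt (by simp)).hasFDerivAt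
    have h2 := (h1.comp z ((hasFDerivAt_id z).const_smul s)).const_smul s⁻¹
    refine h2.fderiv.trans ?_
    ext v : 1
    simp [smul_smul, hs.ne']
  refine ⟨h.isOpen.preimage hc.continuous, ⟨h.riem.isOpen.preimage hc.continuous,
    fun a b => (h.riem.contDiffOn a b).comp hc.contDiffOn fun z hz => hz,
    fun z hz => h.riem.posDef _ hz⟩, fun z hz => ?_,
    (h.smooth.comp hc.contDiffOn fun z hz => hz).const_smul _, fun z hz a b => ?_, fun z hz => ?_⟩
  · show s • s⁻¹ • Θ (s • z) ∈ W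
    rw [e]; exact h.maps _ hz
  · rw [hd z hz, e]; exact h.pull _ hz a b
  · rw [hd z hz]; exact h.inj _ hz

end Crest.Agent.N207.TR

end
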