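import Crest.Agent.N207.TR.Lift
import Crest.Agent.N207.I.Rig
import Crest.Agent.N207.TR.Top
import Crest.Agent.N207.TR.Core

-- ▼ part N207/TR/Rig
section

/-!
# Row 207 (helper38): an equivariant almost isometry of a shell is close to an orthogonal intertwiner
-/

set_option autoImplicit false
set_option linter.style.haveILetI false

open scoped ContDiff Topology InnerProductSpace
open Set Filter Metric

noncomputable section

namespace Crest.Agent.N207.TR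

open Sk I

theorem exists_orth (x y : E4) : ∃ z : E4, ‖z‖ = 1 ∧ ⟪x, z⟫_ℝ = 0 ∧ ⟪y, z⟫_ℝ = 0 := by
  let L : E4 →ₗ[ℝ] ℝ × ℝ := (innerSL ℝ x : E4 →ₗ[ℝ] ℝ).prod (innerSL ℝ y : E4 →ₗ[ℝ] ℝ)
  have h := LinearMap.ker_ne_bot_of_finrank_lt (f := L) (by simp)
  obtain ⟨z, hz, h0⟩ := (Submodule.ne_bot_iff _).1 h
  have h1 : ⟪x, z⟫_ℝ = 0 := congrArg Prod.fst (LinearMap.mem_ker.1 hz)
  have h2 : ⟪y, z⟫_ℝ = 0 := congrArg Prod.snd (LinearMap.mem_ker.1 hz)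
  exact ⟨‖z‖⁻¹ • z, norm_dir h0, by simp [inner_smul_right, h1], by simp [inner_smul_right, h2]⟩

theorem seg_sub {a a' b : ℝ} (ha : 0 ≤ a) (ha' : 0 ≤ a') (h : 2 * a' ^ 2 ≤ a ^ 2) {x z : E4}
    (hx : x ∈ shell a b) (hz : z ∈ shell a b) (h0 : ⟪x, z⟫_ℝ = 0) : segment ℝ x z ⊆ shell a' b := by
  intro p hp
  refine ⟨?_, mem_ball_zero_iff.1 ((convex_ball (0 : E4) b).segment_subset
    (mem_ball_zero_iff.2 hx.2) (mem_ball_zero_iff.2 hz.2) hp)⟩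
  obtain ⟨s, t, hs, ht, hst, rfl⟩ := hp
  have e : ‖s • x + t • z‖ ^ 2 = s ^ 2 * ‖x‖ ^ 2 + t ^ 2 * ‖z‖ ^ 2 := by
    rw [norm_add_sq_real, inner_smul_left, inner_smul_right, h0, norm_smul, norm_smul, mul_pow,
      mul_pow, Real.norm_eq_abs, Real.norm_eq_abs, sq_abs, sq_abs]
    simp
  have h1 : a ^ 2 < ‖x‖ ^ 2 := pow_lt_pow_left₀ hx.1 ha two_ne_zero
  have h2 : a ^ 2 < ‖z‖ ^ 2 := pow_lt_pow_left₀ hz.1 ha two_ne_zero
  refine lt_of_pow_lt_pow_left₀ 2 (norm_nonneg _) ?_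
  rw [e]
  have h3 : 1 / 2 ≤ s ^ 2 + t ^ 2 := by nlinarith [sq_nonneg (s - t)]
  set μ := min (‖x‖ ^ 2) (‖z‖ ^ 2)
  have h4 : a ^ 2 < μ := lt_min h1 h2
  have h5 := mul_le_mul_of_nonneg_left (min_le_left (‖x‖ ^ 2) (‖z‖ ^ 2)) (sq_nonneg s)
  have h6 := mul_le_mul_of_nonneg_left (min_le_right (‖x‖ ^ 2) (‖z‖ ^ 2)) (sq_nonneg t)
  have h7 : 0 ≤ μ := (sq_nonneg a).trans h4.le
  nlinarith [mul_le_mul_of_nonneg_right h3 h7]

/-- oscillation on a shell -/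
theorem osc {Y : Type*} [NormedAddCommGroup Y] [NormedSpace ℝ Y] {F : E4 → Y} {a a' b c : ℝ}
    (ha : 0 ≤ a) (ha' : 0 ≤ a') (h : 2 * a' ^ 2 ≤ a ^ 2)
    (hd : ∀ x ∈ shell a' b, DifferentiableAt ℝ F x) (hb : ∀ x ∈ shell a' b, ‖fderiv ℝ F x‖ ≤ c)
    {x y : E4} (hx : x ∈ shell a b) (hy : y ∈ shell a b) : ‖F x - F y‖ ≤ 4 * b * c := by
  obtain ⟨u, hu, h1, h2⟩ := exists_orth x y
  have hz : ‖x‖ • u ∈ shell a b := by
    show a < _ ∧ _ < b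
    rw [norm_smul, norm_norm, hu, mul_one]; exact hx
  have key : ∀ p ∈ shell a b, ⟪p, u⟫_ℝ = 0 → ‖F p - F (‖x‖ • u)‖ ≤ 2 * b * c := fun p hp h0 => by
    have hs := seg_sub ha ha' h hp hz (by rw [inner_smul_right, h0, mul_zero])
    have hc : 0 ≤ c := (norm_nonneg _).trans (hb p (hs (left_mem_segment _ _ _)))
    have := (convex_segment p (‖x‖ • u)).norm_image_sub_le_of_norm_fderiv_le
      (fun z hz => hd z (hs hz)) (fun z hz => hb z (hs hz)) (right_mem_segment _ _ _)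
      (left_mem_segment _ _ _)
    have h3 : ‖p - ‖x‖ • u‖ ≤ 2 * b := (norm_sub_le _ _).trans (by linarith [hp.2, hz.2])
    nlinarith [mul_le_mul_of_nonneg_left h3 hc]
  have := norm_sub_le_norm_sub_add_norm_sub (F x) (F (‖x‖ • u)) (F y)
  rw [norm_sub_rev (F (‖x‖ • u))] at this
  linarith [key x hx h1, key y hy h2]

/-- an almost orthogonal intertwiner can be made orthogonal -/
theorem orth_near {E : Type*} [NormedAddCommGroup E] [InnerProductSpace ℝ E] [FiniteDimensional ℝ E]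
    [CompleteSpace E] {G : Type*} [Group G] (ρ σ : G →* (E ≃ₗᵢ[ℝ] E)) (A : E →L[ℝ] E)
    (hA : ‖star A * A - 1‖ ≤ 1 / 4) (hi : ∀ g, cl (ρ g) * A = A * cl (σ g)) :
    ∃ O : E ≃ₗᵢ[ℝ] E, ‖cl O - A‖ ≤ ‖star A * A - 1‖ ∧ ∀ g, ρ g * O = O * σ g := by
  set X := star A * A - 1 with hX
  have hXs : star X = X := by simp [hX]
  have hXc : ∀ g, X * cl (σ g) = cl (σ g) * X := by
    intro g
    have h1 := congrArg star (hi g⁻¹)
    simp only [star_mul, star_cl, map_inv, inv_inv] at h1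
    rw [hX, sub_mul, mul_sub, mul_assoc, ← hi g, ← mul_assoc, h1, mul_assoc, one_mul, mul_one]
  obtain ⟨Y, ⟨hYs, hYc⟩, hYn, hY⟩ := sqrt_near X hA
    {Y | star Y = Y ∧ ∀ g, Y * cl (σ g) = cl (σ g) * Y}
    (by
      have : {Y : E →L[ℝ] E | star Y = Y ∧ ∀ g, Y * cl (σ g) = cl (σ g) * Y}
          = {Y | star Y = Y} ∩ ⋂ g, {Y | Y * cl (σ g) = cl (σ g) * Y} := by ext; simp
      rw [this]
      exact (isClosed_eq continuous_star continuous_id).inter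
        (isClosed_iInter fun g => isClosed_eq (by fun_prop) (by fun_prop)))
    (by simp)
    (by
      rintro Y ⟨h1, h2⟩
      refine ⟨by simp [star_mul, h1, hXs], fun g => ?_⟩
      rw [smul_mul_assoc, mul_smul_comm, sub_mul, mul_sub, hXc, mul_assoc, h2, ← mul_assoc, h2,
        mul_assoc])
  have hY4 : ‖Y‖ ≤ 1 / 4 := by linarith
  let u : (E →L[ℝ] E)ˣ := Units.oneSub (-Y) (by rw [norm_neg]; linarith)
  have hu : (u : E →L[ℝ] E) = 1 + Y := by simp [u]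
  set S : E →L[ℝ] E := ↑u⁻¹ with hS
  have hS1 : (1 + Y) * S = 1 := by rw [← hu, hS]; simp
  have hS2 : S * (1 + Y) = 1 := by rw [← hu, hS]; simp
  have hSs : star S * (1 + Y) = 1 := by
    have := congrArg star hS1
    simpa [star_mul, hYs] using this
  have hO : star (A * S) * (A * S) = 1 := by
    have : star A * A = (1 + Y) * (1 + Y) := by rw [hY, hX]; abel
    calc star (A * S) * (A * S) = star S * (star A * A) * S := by rw [star_mul]; noncomm_ring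
      _ = (star S * (1 + Y)) * ((1 + Y) * S) := by rw [this]; noncomm_ring
      _ = 1 := by rw [hSs, hS1, one_mul]
  have hiso : ∀ x, ‖(A * S) x‖ = ‖x‖ := by
    intro x
    have h1 : inner ℝ ((A * S) x) ((A * S) x) = inner ℝ x x := by
      rw [← ContinuousLinearMap.adjoint_inner_right, ← ContinuousLinearMap.star_eq_adjoint]
      have := congrArg (fun L : E →L[ℝ] E => L x) hO
      simp only [ContinuousLinearMap.mul_apply, ContinuousLinearMap.one_apply] at this ⊢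
      rw [this]
    rw [real_inner_self_eq_norm_sq, real_inner_self_eq_norm_sq] at h1
    exact (sq_eq_sq₀ (norm_nonneg _) (norm_nonneg _)).1 h1
  obtain ⟨O, hOe⟩ := exists_cl _ hiso
  refine ⟨O, ?_, fun g => cl_inj ?_⟩
  · have e : cl O - A = -(cl O * Y) := by
      have : cl O * (1 + Y) = A := by rw [hOe, mul_assoc, hS2, mul_one]
      rw [← this]; noncomm_ring
    have h1 : ‖cl O‖ ≤ 1 := ContinuousLinearMap.opNorm_le_bound _ zero_le_one fun x => by simp [cl]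
    have h2 : ‖cl O * Y‖ ≤ ‖Y‖ := (norm_mul_le _ _).trans (by nlinarith [norm_nonneg Y])
    rw [e, norm_neg]
    linarith
  · have h1 : S * cl (σ g) = cl (σ g) * S := by
      have h2 : (1 + Y) * cl (σ g) = cl (σ g) * (1 + Y) := by
        rw [add_mul, mul_add, hYc, one_mul, mul_one]
      calc S * cl (σ g) = S * cl (σ g) * ((1 + Y) * S) := by rw [hS1, mul_one]
        _ = S * ((1 + Y) * cl (σ g)) * S := by rw [h2]; noncomm_ring
        _ = cl (σ g) * S := by rw [← mul_assoc, hS2, one_mul]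
    rw [cl_mul, cl_mul, hOe, ← mul_assoc, hi, mul_assoc, mul_assoc, h1]

theorem star_near {E : Type*} [NormedAddCommGroup E] [InnerProductSpace ℝ E] [CompleteSpace E]
    {B L : E →L[ℝ] E} {c : ℝ} (hc : c ≤ 1 / 200) (hBL : ‖B - L‖ ≤ 8 * c)
    (h1 : ‖star L * L - 1‖ ≤ c) (h2 : ‖L‖ ≤ 2) : ‖star B * B - 1‖ ≤ 41 * c := by
  have hc0 : 0 ≤ c := (norm_nonneg _).trans h1
  have ns : ∀ X : E →L[ℝ] E, ‖star X‖ = ‖X‖ := fun X => by
    rw [ContinuousLinearMap.star_eq_adjoint]; exact LinearIsometryEquiv.norm_map _ _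
  have e : star B * B - 1 = (star L * L - 1) + star (B - L) * (L + (B - L)) + star L * (B - L) := by
    rw [star_sub]; noncomm_ring
  have n1 : ‖star (B - L) * (L + (B - L))‖ ≤ 8 * c * (2 + 8 * c) := by
    refine (norm_mul_le _ _).trans ?_
    rw [ns]
    exact mul_le_mul hBL ((norm_add_le _ _).trans (add_le_add h2 hBL)) (norm_nonneg _)
      (by positivity)
  have n2 : ‖star L * (B - L)‖ ≤ 2 * (8 * c) := by
    refine (norm_mul_le _ _).trans ?_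
    rw [ns]
    exact mul_le_mul h2 hBL (norm_nonneg _) (by positivity)
  rw [e]
  refine norm_add₃_le.trans ?_
  nlinarith

theorem avg_le {H Y : Type*} [Fintype H] [Nonempty H] [NormedAddCommGroup Y] [NormedSpace ℝ Y]
    {v : H → Y} {u : Y} {c : ℝ} (h : ∀ g, ‖v g - u‖ ≤ c) :
    ‖(Fintype.card H : ℝ)⁻¹ • ∑ g, v g - u‖ ≤ c := by
  have hc : (0 : ℝ) < Fintype.card H := by exact_mod_cast Fintype.card_pos
  have e : (Fintype.card H : ℝ)⁻¹ • ∑ g, v g - u = (Fintype.card H : ℝ)⁻¹ • ∑ g, (v g - u) := by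
    rw [Finset.sum_sub_distrib, smul_sub, Finset.sum_const, Finset.card_univ,
      ← Nat.cast_smul_eq_nsmul ℝ, smul_smul, inv_mul_cancel₀ hc.ne', one_smul]
  rw [e, norm_smul, norm_inv, Real.norm_of_nonneg hc.le, inv_mul_le_iff₀ hc]
  refine (norm_sum_le _ _).trans ((Finset.sum_le_sum fun g _ => h g).trans ?_)
  simp

theorem avg_int {E : Type*} [NormedAddCommGroup E] [InnerProductSpace ℝ E] {H : Type*} [Group H]
    [Fintype H] (ρ σ : H →* (E ≃ₗᵢ[ℝ] E)) (L : E →L[ℝ] E) (g : H) :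
    cl (ρ g) * ((Fintype.card H : ℝ)⁻¹ • ∑ h, cl (ρ h⁻¹) * L * cl (σ h)) =
      ((Fintype.card H : ℝ)⁻¹ • ∑ h, cl (ρ h⁻¹) * L * cl (σ h)) * cl (σ g) := by
  have : ∑ h, cl (ρ h⁻¹) * L * cl (σ h) * cl (σ g) = ∑ h, cl (ρ g) * (cl (ρ h⁻¹) * L * cl (σ h)) := by
    refine Fintype.sum_equiv (Equiv.mulRight g) _ _ fun k => ?_
    simp only [Equiv.coe_mulRight, ← mul_assoc]
    rw [← cl_mul, ← map_mul, mul_inv_rev, ← mul_assoc, mul_inv_cancel, one_mul, map_mul σ, cl_mul,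
      mul_assoc (cl (ρ k⁻¹) * L)]
  rw [mul_smul_comm, smul_mul_assoc, Finset.mul_sum, Finset.sum_mul, this]

theorem norm_cl (g : E4 ≃ₗᵢ[ℝ] E4) : ‖cl g‖ ≤ 1 :=
  ContinuousLinearMap.opNorm_le_bound _ zero_le_one fun x => by simp [cl]

/-- **rigidity on a shell** -/
theorem rigid {H : Type*} [Group H] [Finite H] (ρ σ : H →* (E4 ≃ₗᵢ[ℝ] E4))
    (hρ : ∃ h, ∀ v, ρ h v = v → v = 0) {Θ : E4 → E4} {c : ℝ} (hc : c ≤ 1 / 200)
    (hs : ContDiffOn ℝ ∞ Θ (shell (1 / 4) 4))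
    (he : ∀ h, ∀ x ∈ shell (1 / 4) 4, Θ (σ h x) = ρ h (Θ x))
    (h2 : ∀ x ∈ shell (1 / 4) 4, ‖fderiv ℝ (fderiv ℝ Θ) x‖ ≤ c)
    (h1 : ∀ x ∈ shell (1 / 4) 4, ‖star (fderiv ℝ Θ x) * fderiv ℝ Θ x - 1‖ ≤ c ∧ ‖fderiv ℝ Θ x‖ ≤ 2) :
    ∃ A : E4 ≃ₗᵢ[ℝ] E4, (∀ h x, A (σ h x) = ρ h (A x)) ∧
      ∀ x ∈ shell (1 / 2) 2, ‖Θ x - A x‖ ≤ 456 * c ∧ ‖fderiv ℝ Θ x - cl A‖ ≤ 57 * c := by
  classical
  haveI := Fintype.ofFinite H
  set a : ℝ := √(1 / 8) with ha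
  have ha0 : 0 ≤ a := Real.sqrt_nonneg _
  have ha2 : a ^ 2 = 1 / 8 := Real.sq_sqrt (by norm_num)
  have ha3 : a ≤ 1 / 2 := by nlinarith
  have ha4 : 1 / 4 ≤ a := by nlinarith
  have s1 : shell (1 / 4) 2 ⊆ shell (1 / 4) 4 := shell_mono le_rfl (by norm_num)
  have s2 : shell a 2 ⊆ shell (1 / 4) 4 := shell_mono ha4 (by norm_num)
  have s3 : shell (1 / 2) 2 ⊆ shell a 2 := shell_mono ha3 le_rfl
  have sm : ∀ x ∈ shell (1 / 4) 4, ContDiffAt ℝ ∞ Θ x := fun x hx =>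
    hs.contDiffAt ((isOpen_shell _ _).mem_nhds hx)
  have hd : ∀ x ∈ shell (1 / 4) 4, DifferentiableAt ℝ Θ x := fun x hx =>
    (sm x hx).differentiableAt (by simp)
  have o1 : ∀ x ∈ shell a 2, ∀ y ∈ shell a 2, ‖fderiv ℝ Θ x - fderiv ℝ Θ y‖ ≤ 8 * c :=
    fun x hx y hy => by
      have := osc (F := fderiv ℝ Θ) (a' := 1 / 4) ha0 (by norm_num) (by rw [ha2]; norm_num)
        (fun z hz => ((sm z (s1 hz)).fderiv_right (m := ∞) (by simp)).differentiableAt (by simp))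
        (fun z hz => h2 z (s1 hz)) hx hy
      linarith
  obtain ⟨x₀, hx₀⟩ := shell_nonempty (a := a) (b := 2) ha0 (by linarith)
  have hc0 : 0 ≤ c := (norm_nonneg _).trans (h1 x₀ (s2 hx₀)).1
  set L := fderiv ℝ Θ x₀ with hL
  have eq : ∀ h, cl (ρ h⁻¹) * fderiv ℝ Θ (σ h x₀) * cl (σ h) = L := fun h => by
    have e1 : (fun x => Θ (cl (σ h) x)) =ᶠ[𝓝 x₀] fun x => cl (ρ h) (Θ x) :=
      mem_of_superset ((isOpen_shell _ _).mem_nhds (s2 hx₀)) fun x hx => he h x hx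
    have d1 := (hd _ (s2 (shell_iso (σ h) hx₀))).hasFDerivAt.comp x₀ (cl (σ h)).hasFDerivAt
    have d2 := (cl (ρ h)).hasFDerivAt.comp x₀ (hd _ (s2 hx₀)).hasFDerivAt
    have e2 : fderiv ℝ Θ (σ h x₀) * cl (σ h) = cl (ρ h) * L :=
      d1.unique (d2.congr_of_eventuallyEq e1)
    rw [mul_assoc, e2, ← mul_assoc, ← cl_mul, ← map_mul, inv_mul_cancel, map_one, cl_one, one_mul]
  set B : E4 →L[ℝ] E4 := (Fintype.card H : ℝ)⁻¹ • ∑ h, cl (ρ h⁻¹) * L * cl (σ h) with hB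
  have hBL : ‖B - L‖ ≤ 8 * c := avg_le fun h => by
    have e : cl (ρ h⁻¹) * L * cl (σ h) - L =
        cl (ρ h⁻¹) * (L - fderiv ℝ Θ (σ h x₀)) * cl (σ h) := by
      rw [mul_sub, sub_mul, eq h]
    rw [e]
    have := o1 _ hx₀ _ (shell_iso (σ h) hx₀)
    calc _ ≤ ‖cl (ρ h⁻¹)‖ * ‖L - fderiv ℝ Θ (σ h x₀)‖ * ‖cl (σ h)‖ := norm_mul₃_le
      _ ≤ 1 * (8 * c) * 1 := by gcongr <;> exact norm_cl _
      _ = _ := by ring
  have hi : ∀ g, cl (ρ g) * B = B * cl (σ g) := avg_int ρ σ L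
  have hL2 := h1 x₀ (s2 hx₀)
  have hBB : ‖star B * B - 1‖ ≤ 41 * c := star_near hc hBL hL2.1 hL2.2
  obtain ⟨O, hO, hOi⟩ := orth_near ρ σ B (by linarith) hi
  have hOi' : ∀ h x, O (σ h x) = ρ h (O x) := fun h x =>
    (congrArg (fun u : E4 ≃ₗᵢ[ℝ] E4 => u x) (hOi h)).symm
  have o2 : ∀ x ∈ shell a 2, ‖fderiv ℝ Θ x - cl O‖ ≤ 57 * c := fun x hx => by
    have e : fderiv ℝ Θ x - cl O = (fderiv ℝ Θ x - L) - (B - L) - (cl O - B) := by abel
    rw [e]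
    refine (norm_sub_le _ _).trans ((add_le_add (norm_sub_le _ _) le_rfl).trans ?_)
    linarith [o1 x hx x₀ hx₀]
  refine ⟨O, hOi', fun x hx => ⟨?_, o2 x (s3 hx)⟩⟩
  have o3 : ∀ y ∈ shell (1 / 2) 2, ‖(Θ y - O y) - (Θ x - O x)‖ ≤ 456 * c := fun y hy => by
    have := osc (F := fun z => Θ z - cl O z) (a' := a) (c := 57 * c) (by norm_num) ha0
      (by rw [ha2]; norm_num) (fun z hz => (hd z (s2 hz)).sub (cl O).differentiableAt)
      (fun z hz => by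
        rw [((hd z (s2 hz)).hasFDerivAt.fun_sub (cl O).hasFDerivAt).fderiv]; exact o2 z hz) hy hx
    exact this.trans (by linarith)
  have z : ∑ h, ρ h (Θ x - O x) = 0 := by
    obtain ⟨h₀, hh⟩ := hρ
    refine hh _ ?_
    rw [map_sum]
    refine Fintype.sum_equiv (Equiv.mulLeft h₀) _ _ fun k => ?_
    simp only [Equiv.coe_mulLeft, map_mul]
    rfl
  have := avg_le (v := fun h => ρ h (Θ x - O x)) (u := Θ x - O x) (c := 456 * c) fun h => by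
    have := o3 _ (shell_iso (σ h) hx)
    rwa [he h x (s2 (s3 hx)), hOi', ← map_sub] at this
  rwa [z, smul_zero, zero_sub, norm_neg] at this

end Crest.Agent.N207.TR

end
end

-- ▼ part N207/TR/Main

/-!
# Row 207 (helper38): `Sk.TRANS`
-/

set_option autoImplicit false
set_option linter.style.haveILetI false
set_option linter.unusedSectionVars false

open scoped ContDiff Manifold Topology
open Set Filter Metric
open Crest.GeometryTopology.CoordMetric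
open Crest.Agent.R202.Tens

noncomputable section

namespace Crest.Agent.N207.TR

open Sk I

theorem jg_scale {G : MetricField 4} {x : E4} {r δ : ℝ} {m : ℕ} (hr : 0 < r) (hδ : 0 ≤ δ)
    (hx : r ≤ 8 * ‖x‖) (h : JG m G x ‖x‖ δ) {k : ℕ} (hk : k ≤ m) (a b : Fin 4) {z : E4}
    (hz : r • z = x) : ‖iteratedFDeriv ℝ k (dv (fun y => G (r • y)) a b) z‖ ≤ 8 ^ m * δ := by
  have h1 := norm_iter_smul (dv G a b) hr k z
  rw [hz] at h1
  have h2 : ‖iteratedFDeriv ℝ k (dv G a b) x‖ * ‖x‖ ^ k ≤ δ := h k hk a b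
  calc _ ≤ r ^ k * ‖iteratedFDeriv ℝ k (dv G a b) x‖ := h1
    _ ≤ (8 * ‖x‖) ^ k * ‖iteratedFDeriv ℝ k (dv G a b) x‖ := by gcongr
    _ = 8 ^ k * (‖iteratedFDeriv ℝ k (dv G a b) x‖ * ‖x‖ ^ k) := by rw [mul_pow]; ring
    _ ≤ 8 ^ m * δ := by gcongr; norm_num

theorem jg_zero {G : MetricField 4} {x : E4} {s δ : ℝ} {m : ℕ} (h : JG m G x s δ) (a b : Fin 4) :
    |dv G a b x| ≤ δ := by
  simpa [J1, norm_iteratedFDeriv_zero] using h 0 (Nat.zero_le _) a b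

theorem jg_mono {G : MetricField 4} {x : E4} {s δ : ℝ} {m m' : ℕ} (h : JG m G x s δ)
    (hm : m' ≤ m) : JG m' G x s δ := fun k hk => h k (hk.trans hm)

/-- the rescaled map -/
def rs (r : ℝ) (Θ : E4 → E4) (z : E4) : E4 := r⁻¹ • Θ (r • z)

theorem core' (m : ℕ) : ∃ C : ℝ, 0 < C ∧ ∀ (G G' : MetricField 4) (Θ : E4 → E4) (V W : Set E4)
    (r δ : ℝ) (z : E4), Pull G G' Θ V W → 0 < r → r • z ∈ V → 0 ≤ δ → δ ≤ 1 / 100 →
    r ≤ 8 * ‖r • z‖ → r ≤ 8 * ‖Θ (r • z)‖ → ‖Θ (r • z)‖ ≤ 8 * r →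
    JG (m + 1) G (r • z) ‖r • z‖ δ → JG (m + 1) G' (Θ (r • z)) ‖Θ (r • z)‖ δ →
    ∀ k ≤ m, ‖iteratedFDeriv ℝ (k + 2) (rs r Θ) z‖ ≤ C * δ := by
  obtain ⟨C, hC, h⟩ := core m (8 ^ (m + 1))
  refine ⟨C, hC, fun G G' Θ V W r δ z hP hr hz h0 h1 a1 a2 a3 j1 j2 => ?_⟩
  have e : r • rs r Θ z = Θ (r • z) := smul_inv_smul₀ hr.ne' _
  refine h ⟨_, _, rs r Θ, _, _, z, δ, pull_scale hP hr, hz, h0, by linarith, ?_,
    fun a b => (jg_zero j1 a b).trans h1, fun a b => ?_,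
    fun k hk a b => jg_scale hr h0 a1 j1 hk a b rfl, fun k hk a b => jg_scale hr h0 a2 j2 hk a b e⟩
  · have : ‖rs r Θ z‖ ≤ 8 := by
      rw [rs, norm_smul, norm_inv, Real.norm_of_nonneg hr.le, inv_mul_le_iff₀ hr]; linarith
    exact this.trans (le_self_pow₀ (by norm_num) (Nat.succ_ne_zero m))
  · have := (jg_zero j2 a b).trans h1
    rwa [← e] at this

theorem j1_unscale {F : E4 → E4} {r c : ℝ} (hr : 0 < r) {k : ℕ} {x : E4}
    (hs : ContDiffAt ℝ ∞ F (r⁻¹ • x)) (h : ‖iteratedFDeriv ℝ k F (r⁻¹ • x)‖ ≤ c) :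
    J1 k (fun y => r • F (r⁻¹ • y)) x r (c * r) := by
  have h1 := norm_iter_smul F (inv_pos.2 hr) k x
  have h2 : ContDiffAt ℝ k (fun y => F (r⁻¹ • y)) x :=
    (hs.of_le (Jt.kle k)).comp x (by fun_prop)
  have h3 := iteratedFDeriv_const_smul_apply' (a := r) h2
  unfold J1
  rw [h3, norm_smul, Real.norm_of_nonneg hr.le]
  calc _ ≤ r * (r⁻¹ ^ k * c) * r ^ k := by gcongr; exact h1.trans (by gcongr)
    _ = c * r := by rw [inv_pow]; field_simp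

theorem iter_sub_lin {F : E4 → E4} {z : E4} (hs : ∀ᶠ y in 𝓝 z, DifferentiableAt ℝ F y)
    (A : E4 →L[ℝ] E4) (k : ℕ) :
    ‖iteratedFDeriv ℝ (k + 2) (fun y => F y - A y) z‖ = ‖iteratedFDeriv ℝ (k + 2) F z‖ := by
  have e1 : fderiv ℝ (fun y => F y - A y) =ᶠ[𝓝 z] fun y => fderiv ℝ F y - A :=
    hs.mono fun y hy => (hy.hasFDerivAt.fun_sub A.hasFDerivAt).fderiv
  have e2 : fderiv ℝ (fun y => fderiv ℝ F y - A) = fderiv ℝ (fderiv ℝ F) :=
    funext fun y => fderiv_sub_const _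
  have e3 := e1.fderiv (𝕜 := ℝ)
  rw [e2] at e3
  simp only [← norm_iteratedFDeriv_fderiv]
  rw [(e3.iteratedFDeriv ℝ k).eq_of_nhds]

theorem pull_rs {G G' : MetricField 4} {Θ : E4 → E4} {V W : Set E4} (h : Pull G G' Θ V W)
    {s : ℝ} (hs : 0 < s) : Pull (fun z => G (s • z)) (fun z => G' (s • z))
      (rs s Θ) ((fun z => s • z) ⁻¹' V) ((fun z => s • z) ⁻¹' W) := pull_scale h hs

theorem smul_shell {r : ℝ} (hr : 0 < r) {z : E4} (hz : z ∈ shell (1 / 4) 4) :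
    r • z ∈ shell (r / 4) (4 * r) := by
  show _ < _ ∧ _ < _
  rw [norm_smul, Real.norm_of_nonneg hr.le]
  constructor <;> nlinarith [hz.1, hz.2]

theorem inv_smul_shell {r : ℝ} (hr : 0 < r) {x : E4} (hx : x ∈ shell (r / 2) (2 * r)) :
    r⁻¹ • x ∈ shell (1 / 2) 2 := by
  show _ < _ ∧ _ < _
  rw [norm_smul, norm_inv, Real.norm_of_nonneg hr.le, lt_inv_mul_iff₀ hr, inv_mul_lt_iff₀ hr]
  constructor <;> linarith [hx.1, hx.2]

/-- the analytic part -/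
theorem euc : ∃ η0 : ℝ, 0 < η0 ∧ ∀ m : ℕ, ∃ C : ℝ, 0 < C ∧ ∀ (H : Type) [Group H] [Finite H]
    (ρ σ : H →* (E4 ≃ₗᵢ[ℝ] E4)) (G G' : MetricField 4) (Θ : E4 → E4) (V W : Set E4) (r δ : ℝ),
    (∃ h, ∀ v, ρ h v = v → v = 0) → Pull G G' Θ V W → 0 < r → shell (r / 4) (4 * r) ⊆ V →
    (∀ x ∈ shell (r / 4) (4 * r), Θ x ∈ shell (r / 8) (8 * r)) →
    (∀ h, ∀ x ∈ shell (r / 4) (4 * r), Θ (σ h x) = ρ h (Θ x)) → 0 ≤ δ → δ ≤ η0 →
    (∀ x ∈ shell (r / 4) (4 * r), JG (m + 1) G x ‖x‖ δ) →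
    (∀ x ∈ shell (r / 8) (8 * r), JG (m + 1) G' x ‖x‖ δ) →
    ∃ A : E4 ≃ₗᵢ[ℝ] E4, (∀ h x, A (σ h x) = ρ h (A x)) ∧
      ∀ x ∈ shell (r / 2) (2 * r), ∀ k ≤ m + 2, J1 k (fun y => Θ y - A y) x r (C * δ * r) := by
  obtain ⟨C0, hC0, h0⟩ := core' 0
  refine ⟨1 / (200 * (C0 + 80)), by positivity, fun m => ?_⟩
  obtain ⟨C, hC, h⟩ := core' m
  refine ⟨456 * (C0 + 80) + C, by positivity,
    fun H _ _ ρ σ G G' Θ V W r δ hρ hP hr s1 m2 he hδ hδ' j1 j2 => ?_⟩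
  have hc : (C0 + 80) * δ ≤ 1 / 200 := by
    rw [le_div_iff₀ (by positivity)] at hδ'
    linarith
  have p1 : 0 ≤ C * δ := by positivity
  have p2 : 0 ≤ (C0 + 80) * δ := by positivity
  have p3 : C0 * δ ≤ (C0 + 80) * δ := by gcongr; linarith
  have p4 : 80 * δ ≤ (C0 + 80) * δ := by gcongr; linarith
  have p5 : (456 * (C0 + 80) + C) * δ = 456 * ((C0 + 80) * δ) + C * δ := by ring
  have hδ1 : δ ≤ 1 / 100 := by linarith only [p4, hc, hδ]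
  have hPr := pull_rs hP hr
  have m1 : ∀ z ∈ shell (1 / 4) 4, r • z ∈ shell (r / 4) (4 * r) := fun z hz => smul_shell hr hz
  have e : ∀ z, r • rs r Θ z = Θ (r • z) := fun z => smul_inv_smul₀ hr.ne' _
  have sm : ContDiffOn ℝ ∞ (rs r Θ) (shell (1 / 4) 4) := hPr.smooth.mono fun z hz => s1 (m1 z hz)
  have sm' : ∀ z ∈ shell (1 / 4) 4, ContDiffAt ℝ ∞ (rs r Θ) z := fun z hz =>
    sm.contDiffAt ((isOpen_shell _ _).mem_nhds hz)
  have q1 : ∀ γ, ∀ z ∈ shell (1 / 4) 4, rs r Θ (σ γ z) = ρ γ (rs r Θ z) := fun γ z hz => by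
    rw [rs, rs, ← map_smul, he γ _ (m1 z hz), map_smul]
  have q2 : ∀ z ∈ shell (1 / 4) 4, ‖fderiv ℝ (fderiv ℝ (rs r Θ)) z‖ ≤ (C0 + 80) * δ :=
    fun z hz => by
      have := h0 _ _ Θ _ _ r δ z hP hr (s1 (m1 z hz)) hδ hδ1 (by linarith only [(m1 z hz).1, hr])
        (by linarith only [(m2 _ (m1 z hz)).1]) (m2 _ (m1 z hz)).2.le
        (jg_mono (j1 _ (m1 z hz)) (by omega)) (jg_mono (j2 _ (m2 _ (m1 z hz))) (by omega)) 0 le_rfl
      rw [← norm_iteratedFDeriv_fderiv, ← norm_iteratedFDeriv_fderiv,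
        norm_iteratedFDeriv_zero] at this
      exact this.trans p3
  have q3 : ∀ z ∈ shell (1 / 4) 4, ‖star (fderiv ℝ (rs r Θ) z) * fderiv ℝ (rs r Θ) z - 1‖ ≤
      (C0 + 80) * δ ∧ ‖fderiv ℝ (rs r Θ) z‖ ≤ 2 := fun z hz => by
    have a1 : ∀ a b, |dv (fun y => G (r • y)) a b z| ≤ δ := fun a b =>
      jg_zero (G := G) (j1 _ (m1 z hz)) a b
    have a2 : ∀ a b, |dv (fun y => G' (r • y)) a b (rs r Θ z)| ≤ δ := fun a b => by
      have := jg_zero (j2 _ (m2 _ (m1 z hz))) a b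
      rwa [← e] at this
    exact ⟨(star_D hPr (s1 (m1 z hz)) hδ1 a1 a2).trans p4,
      norm_D_le hPr (s1 (m1 z hz)) (fun a b => (a1 a b).trans hδ1) fun a b => (a2 a b).trans hδ1⟩
  obtain ⟨A, hA, hA'⟩ := rigid ρ σ hρ hc sm q1 q2 q3
  refine ⟨A, hA, fun x hx k hk => ?_⟩
  have hz := inv_smul_shell hr hx
  have hz' : r⁻¹ • x ∈ shell (1 / 4) 4 := shell_mono (by norm_num) (by norm_num) hz
  have e2 : (fun y => Θ y - A y) = fun y => r • (fun z => rs r Θ z - cl A z) (r⁻¹ • y) := by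
    funext y
    simp only [smul_sub, e, map_smul, smul_inv_smul₀ hr.ne']
    rfl
  rw [e2]
  refine j1_unscale (F := fun z => rs r Θ z - cl A z) hr
    ((sm' _ hz').sub (cl A).contDiff.contDiffAt) ?_
  rcases k with _ | _ | k
  · rw [norm_iteratedFDeriv_zero]
    exact (hA' _ hz).1.trans (by linarith only [p1, p2, p5])
  · rw [← norm_iteratedFDeriv_fderiv, norm_iteratedFDeriv_zero,
      (((sm' _ hz').differentiableAt (by simp)).hasFDerivAt.fun_sub (cl A).hasFDerivAt).fderiv]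
    exact (hA' _ hz).2.trans (by linarith only [p1, p2, p5])
  · rw [iter_sub_lin (mem_of_superset ((isOpen_shell _ _).mem_nhds hz') fun y hy =>
      (sm' y hy).differentiableAt (by simp))]
    have := h _ _ Θ _ _ r δ _ hP hr (s1 (m1 _ hz')) hδ hδ1 (by linarith only [(m1 _ hz').1, hr])
      (by linarith only [(m2 _ (m1 _ hz')).1]) (m2 _ (m1 _ hz')).2.le
      (j1 _ (m1 _ hz')) (j2 _ (m2 _ (m1 _ hz'))) k (by omega)
    exact this.trans (by linarith only [p1, p2, p5])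

/-- **GEO 3** -/
theorem trans (M : Type*) [TopologicalSpace M] [ChartedSpace E4 M] [IsManifold 𝓘(ℝ, E4) ∞ M]
    [T3Space M] [ConnectedSpace M] [MeasurableSpace M] [BorelSpace M] : TRANS M := by
  obtain ⟨η0, hη, h⟩ := euc
  refine ⟨η0, hη, fun m => ?_⟩
  obtain ⟨C, hC, h⟩ := h m
  refine ⟨C, hC, fun g N N' V r1 r2 t t' _ _ a a' b b' r c => ?_⟩
  have hT : Two N N' r1 r2 := ⟨t, t', a, a', b, b', r, c⟩
  obtain ⟨Θ, ι, hΘ, hι⟩ := hT.iso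
  refine ⟨Θ, ι, hΘ.sm, fun x hx => ⟨hΘ.mem x hx, hΘ.eq x hx, fun γ => hι γ x hx⟩,
    fun r δ hr1 hr2 hδ hδ' j1 j2 => ?_⟩
  have hp := hT.pos
  have s1 : shell (r / 4) (4 * r) ⊆ shell r1 (r2 / 2) := shell_mono (by linarith) (by linarith)
  haveI := t.grp.fin
  refine h N.Γ (N'.Γ.subtype.comp ι.toMonoidHom) N.Γ.subtype _ _ Θ _ _ r δ ?_
    (Gs.pull_of' g t.par t'.par (isOpen_shell _ _) hT.sub hΘ.sm
      fun z hz => ⟨hΘ.mem z hz, hΘ.eq z hz⟩) (by linarith) s1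
    (fun x hx => ⟨by linarith [hΘ.lo x (s1 hx), hx.1], by linarith [hΘ.hi x (s1 hx), hx.2]⟩)
    (fun γ x hx => hι γ x (s1 hx)) hδ hδ' j1 j2
  obtain ⟨γ, hγ⟩ := (Subgroup.ne_bot_iff_exists_ne_one).1 t'.grp.ne
  refine ⟨ι.symm γ, fun v hv => by_contra fun h0 => hγ (Subtype.ext ?_)⟩
  exact t'.grp.free γ.1 γ.2 v h0 (by simpa using hv)

end Crest.Agent.N207.TR

end
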